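import Vale.Agent.P307C.Red
import Vale.Agent.P307C.PoAm
import Vale.Agent.P307M.Ind

/-!
Shelah's eventual categoricity conjecture, in ZFC, for abstract elementary classes with a
continuous amalgamation notion whose amalgams are unique and prime (disjoint pushouts are an
instance), and for classes of modules closed under direct sums.
-/

open Cardinal

universe u

namespace Vale.Agent.Results.P307.All

theorem result (l : Cardinal.{u}) :
    (∀ (L : FirstOrder.Language.{u, u}) (K : Vale.Agent.P307P.AEC L), K.HasPushouts →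
      Nonempty (Vale.Agent.P307C.Amalg K)) ∧
    ∃ μ : Cardinal.{u}, l ≤ μ ∧
      (∀ (L : FirstOrder.Language.{u, u}) (K : Vale.Agent.P307P.AEC L), K.LSBound l →
        Nonempty (Vale.Agent.P307C.Amalg K) → ∀ k : Cardinal.{u}, μ ≤ k → K.Categorical k →
          ∀ k' : Cardinal.{u}, μ ≤ k' → K.Categorical k') ∧
      ∀ (R : Type u) [Ring R] (K : Vale.Agent.P307M.ModAEC R), K.LSBound l →
        K.SumClosed → ∀ k : Cardinal.{u}, μ ≤ k → K.Categorical k →
          ∀ k' : Cardinal.{u}, μ ≤ k' → K.Categorical k' := by
  obtain ⟨μ, h1, h2⟩ := Vale.Agent.P307C.eventual l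
  refine ⟨fun _ _ => Vale.Agent.P307C.amalg_of_pushouts,
    max μ (Order.succ (Order.succ (Order.succ (2 ^ l)))), h1.trans (le_max_left _ _),
    fun L K a b k hk hc k' hk' =>
      h2 L K a b k ((le_max_left _ _).trans hk) hc k' ((le_max_left _ _).trans hk'),
    fun R _ K a b k hk hc k' hk' =>
      Vale.Agent.P307M.transfer a b ((le_max_right _ _).trans hk) hc ?_⟩
  exact lt_of_lt_of_le ((Order.lt_succ _).trans ((Order.lt_succ _).trans (Order.lt_succ _)))
    ((le_max_right _ _).trans hk')

end Vale.Agent.Results.P307.All
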