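import Vale.Agent.P307M.Ind

/-!
Categoricity transfer, in ZFC and without amalgamation or tameness hypotheses, for every abstract
elementary class of modules whose class of models is closed under direct sums.
-/

open Cardinal

universe u

namespace Vale.Agent.Results.P307.ModuleSums

open Vale.Agent.P307M

theorem result (l : Cardinal.{u}) (R : Type u) [Ring R] (K : ModAEC R) (hl : K.LSBound l)
    (hs : K.SumClosed) (k : Cardinal.{u})
    (hk : Order.succ (Order.succ (Order.succ (2 ^ l))) ≤ k) (hc : K.Categorical k)
    (k' : Cardinal.{u}) (hk' : 2 ^ l < k') : K.Categorical k' :=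
  transfer hl hs hk hc hk'

end Vale.Agent.Results.P307.ModuleSums
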