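import Vale.Agent.P307C.Red

/-!
Shelah's eventual categoricity conjecture, in ZFC, for abstract elementary classes with a
continuous amalgamation notion whose amalgams are unique and prime.
-/

open Cardinal

universe u

namespace Vale.Agent.Results.P307.Prime

theorem result (l : Cardinal.{u}) :
    ∃ μ : Cardinal.{u}, l ≤ μ ∧
      ∀ (L : FirstOrder.Language.{u, u}) (K : Vale.Agent.P307P.AEC L), K.LSBound l →
        Nonempty (Vale.Agent.P307C.Amalg K) → ∀ k : Cardinal.{u}, μ ≤ k → K.Categorical k →
          ∀ k' : Cardinal.{u}, μ ≤ k' → K.Categorical k' :=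
  Vale.Agent.P307C.eventual l

end Vale.Agent.Results.P307.Prime
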