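import Vale.Agent.P307P.Red

/-!
Shelah's eventual categoricity conjecture, in ZFC, for abstract elementary classes in which spans
of strong embeddings have disjoint pushouts along homomorphisms.
-/

open Cardinal

universe u

namespace Vale.Agent.Results.P307.Pushouts

open Vale.Agent.P307P

theorem result (l : Cardinal.{u}) :
    ∃ μ : Cardinal.{u}, l ≤ μ ∧ ∀ (L : FirstOrder.Language.{u, u}) (K : AEC L), K.LSBound l →
      K.HasPushouts → ∀ k : Cardinal.{u}, μ ≤ k → K.Categorical k →
        ∀ k' : Cardinal.{u}, μ ≤ k' → K.Categorical k' :=
  eventual l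

end Vale.Agent.Results.P307.Pushouts
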